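import Vale.Agent.P038.H794.Min

/-!
# Seymour's second neighbourhood conjecture
-/

namespace Vale.Agent.P038.H794

open Finset
open scoped Classical

variable {V : Type*} [Fintype V]

theorem bd_nonneg (D : OGraph V) (X : Finset V) : 0 ≤ bd D X := by
  have := Finset.card_le_card (subset_N D X)
  unfold bd
  omega

/-- In a graph without sinks some row of a compatible pair is not closed. -/
theorem exists_open {D : OGraph V} [Nonempty V] (hout : ∀ v, ∃ u, D.arc v u)
    {X Y : V → Finset V} (h : Compat D X Y) : ∃ a, (N D (X a) \ X a).Nonempty := by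
  by_contra hno
  push Not at hno
  have hclosed : ∀ a, ∀ x ∈ X a, ∀ b, D.arc x b → b ∈ X a := by
    intro a x hx b hxb
    by_contra hb
    have h1 := hno a
    have h2 : b ∈ N D (X a) \ X a := mem_sdiff.mpr ⟨mem_N.mpr ⟨x, hx, Or.inr hxb⟩, hb⟩
    rw [h1] at h2
    exact absurd h2 (by simp)
  choose f hf using hout
  obtain ⟨v⟩ := (inferInstance : Nonempty V)
  obtain ⟨i, j, hij, heq⟩ := Finite.exists_ne_map_eq_of_infinite (fun i : ℕ => f^[i] v)
  have key : ∀ i j : ℕ, i < j → f^[i] v = f^[j] v → False := by
    intro i j hlt he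
    obtain ⟨k, rfl⟩ : ∃ k, j = (k + 1) + i := ⟨j - i - 1, by omega⟩
    set a := f^[i] v with ha
    have hiter : ∀ k, f^[k] a ∈ X a := by
      intro k
      induction k with
      | zero => exact h.memX a
      | succ k ih =>
        rw [Function.iterate_succ_apply']
        exact hclosed a _ ih _ (hf _)
    have hback : f (f^[k] a) = a := by
      have h1 : f (f^[k] a) = f^[k + 1] a := (Function.iterate_succ_apply' f k a).symm
      have h2 : f^[k + 1] a = f^[(k + 1) + i] v := by
        rw [Function.iterate_add_apply f (k + 1) i v]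
      rw [h1, h2]
      exact he.symm
    have harc : D.arc (f^[k] a) a := by
      have := hf (f^[k] a)
      rwa [hback] at this
    have hc := h.comp a (f^[k] a) (subset_N D _ (hiter k))
      (mem_N.mpr ⟨f^[k] a, h.memY _, Or.inr harc⟩)
    rw [← hc] at harc
    exact D.loopless _ harc
  rcases lt_or_gt_of_ne hij with hlt | hlt
  · exact key i j hlt heq
  · exact key j i hlt heq.symm

theorem no_min_ce {D : OGraph V} [Nonempty V] (hce : CE D)
    (hmin : ∀ D' : OGraph V, CE D' → arcs D ≤ arcs D') : False := by
  have hle : ∀ X : Finset V, bd D (N D X) ≤ bd D X := by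
    intro X
    by_cases hX : (N D X \ X).Nonempty
    · exact (set_ineq hce hmin X hX).le
    · have h1 : N D X = X := by
        rw [Finset.not_nonempty_iff_eq_empty, Finset.sdiff_eq_empty_iff_subset] at hX
        exact Subset.antisymm hX (subset_N D X)
      rw [h1]
  have hout : ∀ v, ∃ u, D.arc v u := by
    intro v
    have h1 := hce v
    obtain ⟨u, hu⟩ := Finset.card_pos.mp (Nat.lt_of_le_of_lt (Nat.zero_le _) h1)
    exact ⟨u, mem_N1.mp hu⟩
  have step : ∀ X Y : V → Finset V, Compat D X Y →
      ∃ X' Y' : V → Finset V, Compat D X' Y' ∧ En D X' Y' < En D X Y := by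
    intro X Y h
    obtain ⟨X', Y', h', hE⟩ := rot D h
    refine ⟨X', Y', h', lt_of_le_of_lt hE ?_⟩
    obtain ⟨a, ha⟩ := exists_open hout h
    unfold En
    refine add_lt_add_of_lt_of_le ?_ (sum_le_sum fun b _ => hle (Y b))
    exact sum_lt_sum (fun b _ => hle (X b)) ⟨a, mem_univ _, set_ineq hce hmin (X a) ha⟩
  have hnn : ∀ X Y : V → Finset V, 0 ≤ En D X Y := fun X Y =>
    add_nonneg (sum_nonneg fun a _ => bd_nonneg D _) (sum_nonneg fun a _ => bd_nonneg D _)
  have desc : ∀ n : ℕ, ∀ X Y : V → Finset V, Compat D X Y → (En D X Y).toNat = n → False := by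
    intro n
    induction n using Nat.strong_induction_on with
    | _ n ih =>
      intro X Y h hn
      obtain ⟨X', Y', h', hlt⟩ := step X Y h
      refine ih (En D X' Y').toNat ?_ X' Y' h' rfl
      have h1 := hnn X' Y'
      omega
  have h0 : Compat D (fun a : V => ({a} : Finset V)) (fun a : V => ({a} : Finset V)) := by
    refine ⟨fun a => by simp, fun a => by simp, fun a b hb ha => ?_⟩
    obtain ⟨x, hx, hr⟩ := mem_N.mp hb
    obtain ⟨y, hy, hr'⟩ := mem_N.mp ha
    rw [mem_singleton] at hx hy
    subst hx hy
    exact rel_antisymm hr hr'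
  exact desc _ _ _ h0 rfl

/-- **Seymour's second neighbourhood conjecture.** -/
theorem second_neighbourhood {V : Type*} [Fintype V] [Nonempty V] (D : OGraph V) :
    ∃ v, (N1 D v).card ≤ (N2 D v).card := by
  by_contra hno
  push Not at hno
  have key : ∀ n : ℕ, ∀ D' : OGraph V, CE D' → arcs D' = n → False := by
    intro n
    induction n using Nat.strong_induction_on with
    | _ n ih =>
      intro D' hce hn
      refine no_min_ce hce fun D'' hce'' => ?_
      by_contra hlt
      push Not at hlt
      exact ih (arcs D'') (by omega) D'' hce'' rfl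
  exact key _ D hno rfl

end Vale.Agent.P038.H794
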