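import Vale.Agent.P038.H794.Rot

/-!
# The neighbourhood inequality for sets in a counterexample with fewest arcs
-/

namespace Vale.Agent.P038.H794

open Finset
open scoped Classical

variable {V : Type*} [Fintype V]

/-- A counterexample to the second neighbourhood conjecture. -/
def CE (D : OGraph V) : Prop := ∀ v, (N2 D v).card < (N1 D v).card

/-- The number of arcs. -/
noncomputable def arcs (D : OGraph V) : ℕ := ∑ v, (N1 D v).card

theorem notMem_N_N1 (D : OGraph V) (v : V) : v ∉ N D (N1 D v) := by
  intro h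
  obtain ⟨x, hx, hr⟩ := mem_N.mp h
  rw [mem_N1] at hx
  rcases hr with rfl | hr
  · exact D.loopless _ hx
  · exact D.asymm _ _ hx hr

theorem card_N2 (D : OGraph V) (v : V) :
    ((N2 D v).card : ℤ) = (N D (N1 D v)).card - (N1 D v).card := by
  have h1 : N2 D v = N D (N1 D v) \ N1 D v := by
    ext x
    rw [mem_N2, mem_sdiff, mem_N, mem_N1]
    constructor
    · rintro ⟨_, h2, u, h3, h4⟩
      exact ⟨⟨u, mem_N1.mpr h3, Or.inr h4⟩, h2⟩
    · rintro ⟨⟨u, hu, hr⟩, h2⟩
      rw [mem_N1] at hu
      rcases hr with rfl | hr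
      · exact absurd hu h2
      · refine ⟨?_, h2, u, hu, hr⟩
        rintro rfl
        exact D.asymm _ _ hu hr
  have h2 := Finset.card_sdiff_add_card_eq_card (subset_N D (N1 D v))
  rw [h1]
  omega

/-- Delete all arcs from `X` to the complement of `X ∪ T`. -/
def del (D : OGraph V) (X T : Finset V) : OGraph V where
  arc u v := D.arc u v ∧ ¬ (u ∈ X ∧ v ∉ X ∧ v ∉ T)
  loopless v h := D.loopless v h.1
  asymm u v h h' := D.asymm u v h.1 h'.1

theorem N_union (D : OGraph V) (X Y : Finset V) : N D (X ∪ Y) = N D X ∪ N D Y := by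
  ext b
  simp only [mem_N, mem_union]
  constructor
  · rintro ⟨x, hx | hx, hr⟩
    · exact Or.inl ⟨x, hx, hr⟩
    · exact Or.inr ⟨x, hx, hr⟩
  · rintro (⟨x, hx, hr⟩ | ⟨x, hx, hr⟩)
    · exact ⟨x, Or.inl hx, hr⟩
    · exact ⟨x, Or.inr hx, hr⟩

/-- **The neighbourhood inequality for sets.** -/
theorem set_ineq {D : OGraph V} (hce : CE D) (hmin : ∀ D' : OGraph V, CE D' → arcs D ≤ arcs D')
    (X : Finset V) (hX : (N D X \ X).Nonempty) : bd D (N D X) < bd D X := by
  by_contra hcon
  push Not at hcon
  set L := N D X \ X with hL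
  have hLX : Disjoint L X := by rw [hL]; exact sdiff_disjoint
  -- the functional
  set d : Finset V → ℤ := fun T => ((N D T \ X).card : ℤ) - 2 * T.card with hd
  have hd0 : d ∅ = 0 := by
    have : N D (∅ : Finset V) = ∅ := by
      ext b; simp [mem_N]
    simp [hd, this]
  have hNN : N D (N D X) = N D X ∪ N D L := by
    have : N D X = X ∪ L := by
      rw [hL, union_sdiff_of_subset (subset_N D X)]
    conv_lhs => rw [this, N_union]
  have hdL : 0 ≤ d L := by
    have e1 : N D L \ X = L ∪ (N D (N D X) \ N D X) := by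
      ext b
      rw [hNN]
      simp only [mem_sdiff, mem_union]
      constructor
      · rintro ⟨h1, h2⟩
        by_cases h3 : b ∈ N D X
        · left; rw [hL, mem_sdiff]; exact ⟨h3, h2⟩
        · right; exact ⟨Or.inr h1, h3⟩
      · rintro (h1 | ⟨h1, h2⟩)
        · refine ⟨subset_N D L h1, ?_⟩
          rw [hL, mem_sdiff] at h1
          exact h1.2
        · refine ⟨?_, fun h => h2 (subset_N D X h)⟩
          rcases h1 with h1 | h1
          · exact absurd h1 h2
          · exact h1
    have e2 : Disjoint L (N D (N D X) \ N D X) := by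
      rw [Finset.disjoint_left]
      intro b hb hb'
      rw [hL, mem_sdiff] at hb
      exact (mem_sdiff.mp hb').2 hb.1
    have e3 : ((N D L \ X).card : ℤ) = L.card + (N D (N D X) \ N D X).card := by
      rw [e1, card_union_of_disjoint e2]; push_cast; ring
    have e4 := Finset.card_sdiff_add_card_eq_card (subset_N D (N D X))
    have e5 := Finset.card_sdiff_add_card_eq_card (subset_N D X)
    rw [← hL] at e5
    unfold bd at hcon
    simp only [hd]
    omega
  -- a minimiser different from `L`
  obtain ⟨T, hTL, hTne, hTmin⟩ : ∃ T, T ⊆ L ∧ T ≠ L ∧ ∀ T', T' ⊆ L → d T ≤ d T' := by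
    obtain ⟨T0, hT0, hmin0⟩ := exists_min_image L.powerset d ⟨∅, by simp⟩
    by_cases hTL : T0 = L
    · refine ⟨∅, by simp, fun h => ?_, fun T' hT' => ?_⟩
      · rw [← h] at hX
        exact absurd hX (by simp)
      · have := hmin0 T' (by simpa using hT')
        rw [hd0]
        rw [hTL] at this
        linarith
    · exact ⟨T0, by simpa using hT0, hTL, fun T' hT' => hmin0 T' (by simpa using hT')⟩
  -- the new graph
  set D' := del D X T with hD'
  have harc : ∀ u v, D'.arc u v ↔ D.arc u v ∧ ¬ (u ∈ X ∧ v ∉ X ∧ v ∉ T) := fun u v => Iff.rfl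
  have hN1sub : ∀ v, N1 D' v ⊆ N1 D v := by
    intro v x hx
    rw [mem_N1] at hx ⊢
    exact ((harc _ _).mp hx).1
  have hNsub : ∀ Y, N D' Y ⊆ N D Y := by
    intro Y b hb
    rw [mem_N] at hb ⊢
    obtain ⟨x, hx, hr⟩ := hb
    refine ⟨x, hx, ?_⟩
    rcases hr with hr | hr
    · exact Or.inl hr
    · exact Or.inr ((harc _ _).mp hr).1
  have hCE' : CE D' := by
    intro v
    have hv := hce v
    have h1 := card_N2 D v
    have h2 := card_N2 D' v
    by_cases hvX : v ∈ X
    · set Z := N1 D v \ (X ∪ T) with hZ
      have hZL : Z ⊆ L := by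
        intro z hz
        rw [hZ, mem_sdiff, mem_N1, mem_union] at hz
        rw [hL, mem_sdiff]
        exact ⟨mem_N.mpr ⟨v, hvX, Or.inr hz.1⟩, fun h => hz.2 (Or.inl h)⟩
      have hZT : Disjoint T Z := by
        rw [Finset.disjoint_left]
        intro z hz hz'
        rw [hZ, mem_sdiff, mem_union] at hz'
        exact hz'.2 (Or.inr hz)
      have e1 : N1 D' v = N1 D v \ Z := by
        ext z
        rw [mem_N1, mem_sdiff, mem_N1, harc, hZ, mem_sdiff, mem_N1, mem_union]
        constructor
        · rintro ⟨h3, h4⟩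
          refine ⟨h3, fun h5 => h4 ⟨hvX, fun h => h5.2 (Or.inl h), fun h => h5.2 (Or.inr h)⟩⟩
        · rintro ⟨h3, h4⟩
          exact ⟨h3, fun h5 => h4 ⟨h3, fun h => h.elim h5.2.1 h5.2.2⟩⟩
      have hZN : Z ⊆ N1 D v := sdiff_subset
      have e2 : ((N1 D' v).card : ℤ) = (N1 D v).card - Z.card := by
        have := Finset.card_sdiff_add_card_eq_card hZN
        rw [e1]; omega
      -- the lost part of the ball
      set W := N D Z \ (X ∪ N D T) with hW
      have e3 : 2 * (Z.card : ℤ) ≤ W.card := by
        have h3 := hTmin (T ∪ Z) (union_subset hTL hZL)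
        have h4 : N D (T ∪ Z) \ X = (N D T \ X) ∪ W := by
          rw [N_union]
          ext b
          simp only [hW, mem_sdiff, mem_union]
          tauto
        have h5 : Disjoint (N D T \ X) W := by
          rw [Finset.disjoint_left]
          intro b hb hb'
          rw [hW, mem_sdiff, mem_union] at hb'
          exact hb'.2 (Or.inr (mem_sdiff.mp hb).1)
        have h6 : ((N D (T ∪ Z) \ X).card : ℤ) = (N D T \ X).card + W.card := by
          rw [h4, card_union_of_disjoint h5]; push_cast; ring
        have h7 : ((T ∪ Z).card : ℤ) = T.card + Z.card := by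
          rw [card_union_of_disjoint hZT]; push_cast; ring
        simp only [hd] at h3
        rw [h6, h7] at h3
        linarith
      have e4 : N D' (N1 D' v) ⊆ N D (N1 D v) \ W := by
        intro b hb
        rw [mem_sdiff]
        refine ⟨N_mono D (hN1sub v) (hNsub _ hb), fun hbW => ?_⟩
        rw [hW, mem_sdiff, mem_union] at hbW
        apply hbW.2
        obtain ⟨u, hu, hr⟩ := mem_N.mp hb
        rw [mem_N1, harc] at hu
        have huXT : u ∈ X ∨ u ∈ T := by
          by_contra hh
          push Not at hh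
          exact hu.2 ⟨hvX, hh.1, hh.2⟩
        rcases huXT with huX | huT
        · rcases hr with rfl | hr
          · exact Or.inl huX
          · rw [harc] at hr
            by_contra hh
            push Not at hh
            exact hr.2 ⟨huX, hh.1, fun hbT => hh.2 (subset_N D T hbT)⟩
        · right
          refine mem_N.mpr ⟨u, huT, ?_⟩
          rcases hr with hr | hr
          · exact Or.inl hr
          · exact Or.inr ((harc _ _).mp hr).1
      have hWsub : W ⊆ N D (N1 D v) := by
        intro b hb
        rw [hW, mem_sdiff] at hb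
        exact N_mono D hZN hb.1
      have e5 := Finset.card_le_card e4
      have e6 := Finset.card_sdiff_add_card_eq_card hWsub
      have e7 := Finset.card_le_card hZN
      omega
    · have e1 : N1 D' v = N1 D v := by
        ext z
        rw [mem_N1, mem_N1, harc]
        exact ⟨fun h => h.1, fun h => ⟨h, fun h' => hvX h'.1⟩⟩
      have e2 := Finset.card_le_card (hNsub (N1 D' v))
      rw [e1] at h2 e2 ⊢
      omega
  have harcs : arcs D' < arcs D := by
    have hex : ∃ z ∈ L, z ∉ T := by
      by_contra hh
      push Not at hh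
      exact hTne (Subset.antisymm hTL hh)
    obtain ⟨z, hzL, hzT⟩ := hex
    rw [hL, mem_sdiff] at hzL
    obtain ⟨y, hyX, hyz⟩ := mem_N.mp hzL.1
    have hyz' : D.arc y z := by
      rcases hyz with rfl | h
      · exact absurd hyX hzL.2
      · exact h
    unfold arcs
    refine sum_lt_sum (fun v _ => Finset.card_le_card (hN1sub v)) ⟨y, mem_univ _, ?_⟩
    refine Finset.card_lt_card ⟨hN1sub y, fun h => ?_⟩
    have := h (mem_N1.mpr hyz')
    rw [mem_N1, harc] at this
    exact this.2 ⟨hyX, hzL.2, hzT⟩
  have := hmin D' hCE'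
  omega

end Vale.Agent.P038.H794
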