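import Vale.Agent.P038.H794.Star

/-!
# The rotation inequality
-/

namespace Vale.Agent.P038.H794

open Finset
open scoped Classical

variable {V : Type*} [Fintype V]

/-- `b` lies in the closed out-neighbourhood of `x`. -/
def rel (D : OGraph V) (x b : V) : Prop := b = x ∨ D.arc x b

/-- The closed out-neighbourhood of a set. -/
noncomputable def N (D : OGraph V) (X : Finset V) : Finset V :=
  univ.filter fun b => ∃ x ∈ X, rel D x b

theorem mem_N {D : OGraph V} {X : Finset V} {b : V} : b ∈ N D X ↔ ∃ x ∈ X, rel D x b := by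
  simp [N]

omit [Fintype V] in
theorem rel_refl (D : OGraph V) (x : V) : rel D x x := Or.inl rfl

theorem subset_N (D : OGraph V) (X : Finset V) : X ⊆ N D X := fun x hx =>
  mem_N.mpr ⟨x, hx, rel_refl D x⟩

theorem N_mono (D : OGraph V) {X Y : Finset V} (h : X ⊆ Y) : N D X ⊆ N D Y := by
  intro b hb
  rw [mem_N] at hb ⊢
  obtain ⟨x, hx, hr⟩ := hb
  exact ⟨x, h hx, hr⟩

omit [Fintype V] in
theorem rel_antisymm {D : OGraph V} {x b : V} (h : rel D x b) (h' : rel D b x) : x = b := by
  rcases h with h | h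
  · exact h.symm
  · rcases h' with h' | h'
    · exact h'
    · exact absurd h' (D.asymm x b h)

/-- A compatible pair of families. -/
structure Compat (D : OGraph V) (X Y : V → Finset V) : Prop where
  memX : ∀ a, a ∈ X a
  memY : ∀ a, a ∈ Y a
  comp : ∀ a b, b ∈ N D (X a) → a ∈ N D (Y b) → a = b

/-- The size of the outer boundary, as an integer. -/
noncomputable def bd (D : OGraph V) (X : Finset V) : ℤ := (N D X).card - X.card

/-- The energy of a pair of families. -/
noncomputable def En (D : OGraph V) (X Y : V → Finset V) : ℤ :=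
  ∑ a, bd D (X a) + ∑ b, bd D (Y b)

theorem card_eq_sum_ite (A : Finset V) : (A.card : ℤ) = ∑ x, if x ∈ A then (1 : ℤ) else 0 := by
  rw [Finset.sum_ite_mem]
  simp

/-- **The rotation inequality.** From a compatible pair `(X, Y)` one gets a compatible pair whose
energy is at most the energy of the pair `(N[X], N[Y])`. -/
theorem rot (D : OGraph V) {X Y : V → Finset V} (h : Compat D X Y) :
    ∃ X' Y' : V → Finset V, Compat D X' Y' ∧
      En D X' Y' ≤ En D (fun a => N D (X a)) (fun b => N D (Y b)) := by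
  set r : V → V → Prop := rel D with hr
  set S : V → Finset V := fun a => N D (X a) with hS
  set S' : V → Finset V := fun b => N D (Y b) with hS'
  have hSmem : ∀ a, ∀ b, r a b → b ∈ S a := fun a b hab =>
    mem_N.mpr ⟨a, h.memX a, hab⟩
  have hS'mem : ∀ a, ∀ b, r a b → b ∈ S' a := fun a b hab =>
    mem_N.mpr ⟨a, h.memY a, hab⟩
  set P : V → Finset V := fun a => univ.filter fun x => a ∉ N D (S' x) with hP
  set Q : V → Finset V := fun y => univ.filter fun b => b ∉ N D (S y) with hQ
  have memP : ∀ a x, x ∈ P a ↔ a ∉ N D (S' x) := by intro a x; simp [hP]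
  have memQ : ∀ y b, b ∈ Q y ↔ b ∉ N D (S y) := by intro y b; simp [hQ]
  obtain ⟨R, T, hRK, hTK, hcov, hstar⟩ := star r P Q
  -- basic facts
  have fP : ∀ a x b, x ∈ P a → r x b → ¬ r b a := by
    intro a x b hx hxb hba
    rw [memP] at hx
    exact hx (mem_N.mpr ⟨b, hS'mem x b hxb, hba⟩)
  have fQ : ∀ y a b, b ∈ Q y → r y a → ¬ r a b := by
    intro y a b hb hya hab
    rw [memQ] at hb
    exact hb (mem_N.mpr ⟨a, hSmem y a hya, hab⟩)
  have hPa : ∀ a, a ∉ P a := fun a ha => fP a a a ha (rel_refl D a) (rel_refl D a)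
  have hQb : ∀ b, b ∉ Q b := fun b hb => fQ b b b hb (rel_refl D b) (rel_refl D b)
  set X' : V → Finset V := fun a => insert a (P a \ hit r (P a) (R a)) with hX'
  set Y' : V → Finset V := fun b => insert b (univ.filter fun y => b ∈ Q y ∧ b ∉ Tq r Q T y)
    with hY'
  have memX' : ∀ a x, x ∈ X' a ↔ x = a ∨ (x ∈ P a ∧ ∀ b ∈ R a, ¬ r x b) := by
    intro a x
    simp only [hX', mem_insert, mem_sdiff, mem_hit]
    constructor
    · rintro (hx | ⟨hx, hno⟩)
      · exact Or.inl hx
      · exact Or.inr ⟨hx, fun b hb hrb => hno ⟨hx, b, hb, hrb⟩⟩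
    · rintro (hx | ⟨hx, hno⟩)
      · exact Or.inl hx
      · exact Or.inr ⟨hx, fun ⟨_, b, hb, hrb⟩ => hno b hb hrb⟩
  have memY' : ∀ b y, y ∈ Y' b ↔ y = b ∨ (b ∈ Q y ∧ ∀ a, r y a → b ∉ T a) := by
    intro b y
    simp only [hY', mem_insert, mem_filter, mem_univ, true_and, mem_Tq]
    constructor
    · rintro (hy | ⟨hy, hno⟩)
      · exact Or.inl hy
      · exact Or.inr ⟨hy, fun a hya hbT => hno ⟨hy, a, hya, hbT⟩⟩
    · rintro (hy | ⟨hy, hno⟩)
      · exact Or.inl hy
      · exact Or.inr ⟨hy, fun ⟨_, a, hya, hbT⟩ => hno a hya hbT⟩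
  -- compatibility
  have hcomp : ∀ a b, b ∈ N D (X' a) → a ∈ N D (Y' b) → a = b := by
    intro a b hb ha
    obtain ⟨x, hx, hxb⟩ := mem_N.mp hb
    obtain ⟨y, hy, hya⟩ := mem_N.mp ha
    rw [memX'] at hx
    rw [memY'] at hy
    rcases hx with rfl | ⟨hxP, hxR⟩
    · rcases hy with rfl | ⟨hyQ, _⟩
      · exact rel_antisymm hxb hya
      · exact absurd hxb (fQ y x b hyQ hya)
    · rcases hy with rfl | ⟨hyQ, hyT⟩
      · exact absurd hya (fP a x y hxP hxb)
      · exfalso
        have hK : b ∈ Kf r P Q a := mem_Kf.mpr ⟨⟨x, hxP, hxb⟩, y, hya, hyQ⟩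
        rcases hcov a b hK with hR | hT
        · exact hxR b hR hxb
        · exact hyT a hya hT
  refine ⟨X', Y', ⟨fun a => by rw [memX']; exact Or.inl rfl,
    fun a => by rw [memY']; exact Or.inl rfl, hcomp⟩, ?_⟩
  -- pairs in `R ∩ T` are in neither of the two neighbourhoods
  have hRT1 : ∀ a b, b ∈ R a → b ∉ N D (X' a) := by
    intro a b hbR hbN
    obtain ⟨x, hx, hxb⟩ := mem_N.mp hbN
    rw [memX'] at hx
    rcases hx with rfl | ⟨_, hxR⟩
    · obtain ⟨_, y, hya, hyQ⟩ := mem_Kf.mp (hRK x hbR)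
      exact fQ y x b hyQ hya hxb
    · exact hxR b hbR hxb
  have hRT2 : ∀ a b, b ∈ T a → a ∉ N D (Y' b) := by
    intro a b hbT haN
    obtain ⟨y, hy, hya⟩ := mem_N.mp haN
    rw [memY'] at hy
    rcases hy with rfl | ⟨_, hyT⟩
    · obtain ⟨⟨x, hxP, hxb⟩, _⟩ := mem_Kf.mp (hTK a hbT)
      exact fP a x y hxP hxb hya
    · exact hyT a hya hbT
  -- the first count
  have c1 : ∑ a, ((N D (X' a)).card : ℤ) + ∑ b, ((N D (Y' b)).card : ℤ)
      + ∑ a, ((R a ∩ T a).card : ℤ) ≤ ∑ _a : V, ∑ _b : V, (1 : ℤ)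
        + ∑ a : V, ∑ b : V, (if a = b then (1 : ℤ) else 0) := by
    simp only [card_eq_sum_ite]
    rw [sum_comm (f := fun b a => if a ∈ N D (Y' b) then (1 : ℤ) else 0),
      ← sum_add_distrib, ← sum_add_distrib, ← sum_add_distrib]
    refine sum_le_sum fun a _ => ?_
    rw [← sum_add_distrib, ← sum_add_distrib, ← sum_add_distrib]
    refine sum_le_sum fun b _ => ?_
    by_cases h1 : b ∈ R a ∩ T a
    · have h2 := hRT1 a b (mem_inter.mp h1).1
      have h3 := hRT2 a b (mem_inter.mp h1).2
      rw [if_neg h2, if_neg h3, if_pos h1]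
      split_ifs <;> norm_num
    · rw [if_neg h1]
      by_cases h2 : b ∈ N D (X' a)
      · by_cases h3 : a ∈ N D (Y' b)
        · rw [if_pos h2, if_pos h3, if_pos (hcomp a b h2 h3)]
          norm_num
        · rw [if_pos h2, if_neg h3]
          split_ifs <;> norm_num
      · rw [if_neg h2]
        split_ifs <;> norm_num
  -- the second count
  have c2 : ∑ y, ((S y).card : ℤ) + ∑ x, ((S' x).card : ℤ) + ∑ y, ((Gf r P Q y).card : ℤ)
      ≤ ∑ _a : V, ∑ _b : V, (1 : ℤ) + ∑ a : V, ∑ b : V, (if a = b then (1 : ℤ) else 0) := by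
    simp only [card_eq_sum_ite]
    rw [sum_comm (f := fun x y => if y ∈ S' x then (1 : ℤ) else 0),
      ← sum_add_distrib, ← sum_add_distrib, ← sum_add_distrib]
    refine sum_le_sum fun y _ => ?_
    rw [← sum_add_distrib, ← sum_add_distrib, ← sum_add_distrib]
    refine sum_le_sum fun x _ => ?_
    by_cases h1 : x ∈ Gf r P Q y
    · obtain ⟨a, hya, hxP, b, hbQ, hxb⟩ := mem_Gf.mp h1
      have h2 : x ∉ S y := fun hx => by
        rw [memQ] at hbQ
        exact hbQ (mem_N.mpr ⟨x, hx, hxb⟩)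
      have h3 : y ∉ S' x := fun hy => by
        rw [memP] at hxP
        exact hxP (mem_N.mpr ⟨y, hy, hya⟩)
      rw [if_neg h2, if_neg h3, if_pos h1]
      split_ifs <;> norm_num
    · rw [if_neg h1]
      by_cases h2 : x ∈ S y
      · by_cases h3 : y ∈ S' x
        · rw [if_pos h2, if_pos h3, if_pos (h.comp y x h2 h3)]
          norm_num
        · rw [if_pos h2, if_neg h3]
          split_ifs <;> norm_num
      · rw [if_neg h2]
        split_ifs <;> norm_num
  have hn1 : ∑ _a : V, ∑ _b : V, (1 : ℤ) = (Fintype.card V : ℤ) * Fintype.card V := by simp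
  have hn2 : ∑ a : V, ∑ b : V, (if a = b then (1 : ℤ) else 0) = Fintype.card V := by simp
  -- cardinalities of the new families
  have d1 : ∑ a, ((X' a).card : ℤ) = Fintype.card V + ∑ a, ((P a).card : ℤ)
      - ∑ a, ((hit r (P a) (R a)).card : ℤ) := by
    have : ∀ a, ((X' a).card : ℤ) = 1 + (P a).card - (hit r (P a) (R a)).card := by
      intro a
      have e1 : (X' a).card = (P a \ hit r (P a) (R a)).card + 1 := by
        rw [hX']
        exact card_insert_of_notMem fun hh => hPa a (mem_sdiff.mp hh).1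
      have e2 := Finset.card_sdiff_add_card_eq_card
        (show hit r (P a) (R a) ⊆ P a from filter_subset _ _)
      omega
    simp only [this, sum_sub_distrib, sum_add_distrib]
    simp
  have d2 : ∑ b, ((Y' b).card : ℤ) = Fintype.card V + ∑ y, ((Q y).card : ℤ)
      - ∑ y, ((Tq r Q T y).card : ℤ) := by
    have e0 : ∀ b, ((Y' b).card : ℤ)
        = 1 + ((univ.filter fun y => b ∈ Q y ∧ b ∉ Tq r Q T y).card : ℤ) := by
      intro b
      have e1 : (Y' b).card = (univ.filter fun y => b ∈ Q y ∧ b ∉ Tq r Q T y).card + 1 := by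
        rw [hY']
        exact card_insert_of_notMem fun hh => hQb b (mem_filter.mp hh).2.1
      rw [e1]; push_cast; ring
    simp only [e0, sum_add_distrib]
    have e3 : ∑ b, ((univ.filter fun y => b ∈ Q y ∧ b ∉ Tq r Q T y).card : ℤ)
        = ∑ y, ((Q y \ Tq r Q T y).card : ℤ) := by
      simp only [card_eq_sum_ite, mem_filter, mem_univ, true_and, mem_sdiff]
      exact sum_comm
    rw [e3]
    have e4 : ∀ y, ((Q y \ Tq r Q T y).card : ℤ) = (Q y).card - (Tq r Q T y).card := by
      intro y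
      have e2 := Finset.card_sdiff_add_card_eq_card
        (show Tq r Q T y ⊆ Q y from filter_subset _ _)
      omega
    simp only [e4, sum_sub_distrib]
    simp
    ring
  have d3 : ∑ a, ((P a).card : ℤ) = (Fintype.card V : ℤ) * Fintype.card V
      - ∑ x, ((N D (S' x)).card : ℤ) := by
    have : ∑ a, ((P a).card : ℤ) + ∑ x, ((N D (S' x)).card : ℤ) = ∑ _a : V, ∑ _b : V, (1 : ℤ) := by
      simp only [card_eq_sum_ite]
      rw [sum_comm, ← sum_add_distrib]
      refine sum_congr rfl fun x _ => ?_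
      rw [← sum_add_distrib]
      refine sum_congr rfl fun a _ => ?_
      by_cases hh : a ∈ N D (S' x)
      · have : x ∉ P a := fun h' => (memP a x).mp h' hh
        rw [if_neg this, if_pos hh]; norm_num
      · have : x ∈ P a := (memP a x).mpr hh
        rw [if_pos this, if_neg hh]; norm_num
    rw [hn1] at this
    linarith
  have d4 : ∑ y, ((Q y).card : ℤ) = (Fintype.card V : ℤ) * Fintype.card V
      - ∑ y, ((N D (S y)).card : ℤ) := by
    have : ∑ y, ((Q y).card : ℤ) + ∑ y, ((N D (S y)).card : ℤ) = ∑ _a : V, ∑ _b : V, (1 : ℤ) := by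
      simp only [card_eq_sum_ite]
      rw [← sum_add_distrib]
      refine sum_congr rfl fun y _ => ?_
      rw [← sum_add_distrib]
      refine sum_congr rfl fun b _ => ?_
      by_cases hh : b ∈ N D (S y)
      · have : b ∉ Q y := fun h' => (memQ y b).mp h' hh
        rw [if_neg this, if_pos hh]; norm_num
      · have : b ∈ Q y := (memQ y b).mpr hh
        rw [if_pos this, if_neg hh]; norm_num
    rw [hn1] at this
    linarith
  unfold En bd
  simp only [sum_sub_distrib]
  rw [hn1, hn2] at c1 c2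
  linarith

end Vale.Agent.P038.H794
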