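import Vale.Agent.P038.H794.Sys

/-!
# The threshold lemma
-/

namespace Vale.Agent.P038.H794

open Finset
open scoped Classical

variable {V : Type*} [Fintype V]

/-- The conflict set of row `a`. -/
noncomputable def Kf (r : V → V → Prop) (P Q : V → Finset V) (a : V) : Finset V :=
  univ.filter fun b => (∃ x ∈ P a, r x b) ∧ ∃ y, r y a ∧ b ∈ Q y

/-- The suppliers of column `y`. -/
noncomputable def Gf (r : V → V → Prop) (P Q : V → Finset V) (y : V) : Finset V :=
  univ.filter fun x => ∃ a, r y a ∧ x ∈ P a ∧ ∃ b ∈ Q y, r x b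

/-- The elements of `Q y` which are hit by `T`. -/
noncomputable def Tq (r : V → V → Prop) (Q T : V → Finset V) (y : V) : Finset V :=
  (Q y).filter fun b => ∃ a, r y a ∧ b ∈ T a

theorem mem_Kf {r : V → V → Prop} {P Q : V → Finset V} {a b : V} :
    b ∈ Kf r P Q a ↔ (∃ x ∈ P a, r x b) ∧ ∃ y, r y a ∧ b ∈ Q y := by
  simp [Kf]

theorem mem_Gf {r : V → V → Prop} {P Q : V → Finset V} {y x : V} :
    x ∈ Gf r P Q y ↔ ∃ a, r y a ∧ x ∈ P a ∧ ∃ b ∈ Q y, r x b := by
  simp [Gf]

theorem mem_Tq {r : V → V → Prop} {Q T : V → Finset V} {y b : V} :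
    b ∈ Tq r Q T y ↔ b ∈ Q y ∧ ∃ a, r y a ∧ b ∈ T a := by
  simp [Tq]

/-- **The threshold lemma.** -/
theorem star (r : V → V → Prop) (P Q : V → Finset V) :
    ∃ R T : V → Finset V, (∀ a, R a ⊆ Kf r P Q a) ∧ (∀ a, T a ⊆ Kf r P Q a) ∧
      (∀ a, ∀ b ∈ Kf r P Q a, b ∈ R a ∨ b ∈ T a) ∧
      ∑ a, ((hit r (P a) (R a)).card : ℤ) + ∑ y, ((Tq r Q T y).card : ℤ)
        - ∑ a, ((R a ∩ T a).card : ℤ) ≤ ∑ y, ((Gf r P Q y).card : ℤ) := by
  set n := Fintype.card V with hn
  set m : ℕ := n * n + 1 with hm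
  choose Ca hCa using fun a => fun k => exists_MM r m (P a) (Kf r P Q a) k
  choose Cy hCy using fun y => fun k => exists_MM r m (Gf r P Q y) (Q y) k
  -- monotonicity in the threshold
  have mono1 : ∀ a k, k ≤ m → ∀ b ∈ Ca a k, b ∈ Ca a m := by
    intro a k hk b hb
    refine (hCa a m).mono (hCa a k) hk ?_ ?_ b hb ((hCa a k).sub hb)
    · intro x hx _ _ _ _; exact hx
    · intro x _ b hb hb' _; exact hb' hb
  have mono2 : ∀ y a k, r y a → ∀ b ∈ Cy y k, b ∈ Kf r P Q a → b ∈ Ca a k := by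
    intro y a k hya b hb hbK
    refine (hCa a k).mono (hCy y k) le_rfl ?_ ?_ b hb hbK
    · intro x hx b' _ hb'Q hr
      rw [mem_Gf]
      exact ⟨a, hya, hx, b', hb'Q, hr⟩
    · intro x hx b' hb'Q hb'K hr
      exact hb'K (mem_Kf.mpr ⟨⟨x, hx, hr⟩, y, hya, hb'Q⟩)
  -- the candidates
  set T : ℕ → V → Finset V := fun k a => Kf r P Q a \ Ca a (k + 1) with hT
  have hTq : ∀ k y, Tq r Q (T k) y ⊆ Q y \ Cy y (k + 1) := by
    intro k y b hb
    rw [mem_Tq] at hb
    obtain ⟨hbQ, a, hya, hbT⟩ := hb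
    simp only [hT, mem_sdiff] at hbT
    rw [mem_sdiff]
    exact ⟨hbQ, fun h => hbT.2 (mono2 y a (k + 1) hya b h hbT.1)⟩
  -- row sums
  have hrow : ∀ a, ∑ k ∈ range m, (((hit r (P a) (Ca a m)).card : ℤ)
      - ((Ca a m ∩ T k a).card : ℤ)) ≤ n := by
    intro a
    have hpt : ∀ k ∈ range m, ((Ca a m ∩ T k a).card : ℤ)
        = (Ca a m).card - (Ca a (k + 1)).card := by
      intro k hk
      have hk' : k + 1 ≤ m := by
        have := mem_range.mp hk
        omega
      have heq : Ca a m ∩ T k a = Ca a m \ Ca a (k + 1) := by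
        ext b
        simp only [hT, mem_inter, mem_sdiff]
        constructor
        · rintro ⟨h1, _, h3⟩; exact ⟨h1, h3⟩
        · rintro ⟨h1, h3⟩; exact ⟨h1, (hCa a m).sub h1, h3⟩
      have hsub : Ca a (k + 1) ⊆ Ca a m := fun b hb => mono1 a (k + 1) hk' b hb
      rw [heq]
      have := Finset.card_sdiff_add_card_eq_card hsub
      omega
    rw [sum_congr rfl fun k hk => by rw [hpt k hk]]
    have hup := sum_upper (Ca a) (hCa a) m
    have hcard : ((Ca a m).card : ℤ) ≤ n := by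
      exact_mod_cast Finset.card_le_univ _
    have hexp : ∑ k ∈ range m, (((hit r (P a) (Ca a m)).card : ℤ)
        - ((Ca a m).card - (Ca a (k + 1)).card))
        = F r m (P a) m (Ca a m) + ∑ k ∈ range m, ((Ca a (k + 1)).card : ℤ) := by
      rw [F, sum_sub_distrib, sum_sub_distrib]
      simp only [sum_const, card_range, nsmul_eq_mul]
      ring
    rw [hexp]
    linarith
  -- column sums
  have hcol : ∀ y, ∑ k ∈ range m, ((Tq r Q (T k) y).card : ℤ) ≤ m * (Gf r P Q y).card := by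
    intro y
    have hlow := sum_lower (Cy y) (hCy y) m
    have hmin := (hCy y m).min (Q y) (Subset.refl _)
    have hpt : ∀ k ∈ range m, ((Tq r Q (T k) y).card : ℤ)
        ≤ (Q y).card - (Cy y (k + 1)).card := by
      intro k _
      have h1 := Finset.card_le_card (hTq k y)
      have h2 := Finset.card_sdiff_add_card_eq_card (hCy y (k + 1)).sub
      omega
    have hsum := sum_le_sum hpt
    have hexp : ∑ k ∈ range m, (((Q y).card : ℤ) - (Cy y (k + 1)).card)
        = m * (Q y).card - ∑ k ∈ range m, ((Cy y (k + 1)).card : ℤ) := by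
      rw [sum_sub_distrib]
      simp only [sum_const, card_range, nsmul_eq_mul]
    have hF : F r m (Gf r P Q y) m (Q y) ≤ m * (Gf r P Q y).card - m * (Q y).card := by
      unfold F
      have : ((hit r (Gf r P Q y) (Q y)).card : ℤ) ≤ (Gf r P Q y).card := by
        exact_mod_cast Finset.card_le_card (filter_subset _ _)
      have hm0 : (0 : ℤ) ≤ m := by positivity
      have := mul_le_mul_of_nonneg_left this hm0
      linarith
    linarith
  -- total
  set Φ : ℕ → ℤ := fun k => ∑ a, ((hit r (P a) (Ca a m)).card : ℤ)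
    + ∑ y, ((Tq r Q (T k) y).card : ℤ) - ∑ a, ((Ca a m ∩ T k a).card : ℤ) with hΦ
  have htot : ∑ k ∈ range m, Φ k ≤ n * n + m * ∑ y, ((Gf r P Q y).card : ℤ) := by
    have e1 : ∑ k ∈ range m, Φ k
        = ∑ a, ∑ k ∈ range m, (((hit r (P a) (Ca a m)).card : ℤ)
            - ((Ca a m ∩ T k a).card : ℤ))
          + ∑ y, ∑ k ∈ range m, ((Tq r Q (T k) y).card : ℤ) := by
      rw [sum_comm (s := univ) (t := range m), sum_comm (s := univ) (t := range m),
        ← sum_add_distrib]
      refine sum_congr rfl fun k _ => ?_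
      simp only [hΦ, sum_sub_distrib]
      ring
    rw [e1]
    have e2 : ∑ a, ∑ k ∈ range m, (((hit r (P a) (Ca a m)).card : ℤ)
            - ((Ca a m ∩ T k a).card : ℤ)) ≤ ∑ _a : V, (n : ℤ) := sum_le_sum fun a _ => hrow a
    have e3 : ∑ y, ∑ k ∈ range m, ((Tq r Q (T k) y).card : ℤ)
        ≤ ∑ y, (m : ℤ) * (Gf r P Q y).card := sum_le_sum fun y _ => hcol y
    rw [← mul_sum] at e3
    have e4 : ∑ _a : V, (n : ℤ) = n * n := by
      simp [hn]
    linarith
  have hex : ∃ k ∈ range m, Φ k ≤ ∑ y, ((Gf r P Q y).card : ℤ) := by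
    by_contra hno
    push Not at hno
    have h1 : ∑ k ∈ range m, (∑ y, ((Gf r P Q y).card : ℤ) + 1) ≤ ∑ k ∈ range m, Φ k :=
      sum_le_sum fun k hk => by have := hno k hk; omega
    simp only [sum_const, card_range, nsmul_eq_mul] at h1
    have h2 : (m : ℤ) = n * n + 1 := by
      rw [hm]; push_cast; ring
    have h3 := h1.trans htot
    rw [mul_add, mul_one] at h3
    linarith
  obtain ⟨k, hk, hΦk⟩ := hex
  refine ⟨fun a => Ca a m, T k, fun a => (hCa a m).sub, fun a => sdiff_subset, ?_, hΦk⟩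
  intro a b hb
  by_cases h : b ∈ Ca a (k + 1)
  · left
    exact mono1 a (k + 1) (by have := mem_range.mp hk; omega) b h
  · right
    simp only [hT, mem_sdiff]
    exact ⟨hb, h⟩

end Vale.Agent.P038.H794
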