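import Vale.Agent.P038.Defs

/-!
# Threshold systems (the combinatorial lemma behind the rotation inequality)

For a relation `r`, a set `S` of suppliers and a set `C` of receivers, `hit r S C` is the set of the
suppliers which are related to some element of `C`. We study the inclusion-minimal minimisers of
`m * |hit r S C| - k * |C|`.
-/

namespace Vale.Agent.P038.H794

open Finset
open scoped Classical

variable {V : Type*}

/-- The elements of `S` which are related to an element of `C`. -/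
noncomputable def hit (r : V → V → Prop) (S C : Finset V) : Finset V :=
  S.filter fun x => ∃ b ∈ C, r x b

theorem mem_hit {r : V → V → Prop} {S C : Finset V} {x : V} :
    x ∈ hit r S C ↔ x ∈ S ∧ ∃ b ∈ C, r x b := by
  simp [hit]

theorem hit_mono {r : V → V → Prop} {S C C' : Finset V} (h : C ⊆ C') :
    hit r S C ⊆ hit r S C' := by
  intro x hx
  rw [mem_hit] at hx ⊢
  obtain ⟨h1, b, hb, hr⟩ := hx
  exact ⟨h1, b, h hb, hr⟩

theorem hit_empty (r : V → V → Prop) (S : Finset V) : hit r S ∅ = ∅ := by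
  ext x
  simp [mem_hit]

/-- The functional `m |hit(S, C)| - k |C|`. -/
noncomputable def F (r : V → V → Prop) (m : ℕ) (S : Finset V) (k : ℕ) (C : Finset V) : ℤ :=
  (m : ℤ) * ((hit r S C).card : ℤ) - (k : ℤ) * (C.card : ℤ)

/-- `C` is an inclusion-minimal minimiser of `F` on the subsets of `J`. -/
structure MM (r : V → V → Prop) (m : ℕ) (S J : Finset V) (k : ℕ) (C : Finset V) : Prop where
  sub : C ⊆ J
  min : ∀ C', C' ⊆ J → F r m S k C ≤ F r m S k C'
  strict : ∀ C', C' ⊂ C → F r m S k C < F r m S k C'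

theorem exists_MM (r : V → V → Prop) (m : ℕ) (S J : Finset V) (k : ℕ) :
    ∃ C, MM r m S J k C := by
  obtain ⟨C0, hC0, hmin⟩ := exists_min_image J.powerset (F r m S k)
    ⟨∅, by simp⟩
  obtain ⟨C, hC, hcard⟩ := exists_min_image
    (J.powerset.filter fun C => F r m S k C = F r m S k C0) Finset.card
    ⟨C0, mem_filter.mpr ⟨hC0, rfl⟩⟩
  simp only [mem_filter, mem_powerset] at hC hcard
  refine ⟨C, hC.1, ?_, ?_⟩
  · intro C' hC'
    rw [hC.2]
    exact hmin C' (by simpa using hC')
  · intro C' hC'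
    have hsub : C' ⊆ J := hC'.1.trans hC.1
    have h1 : F r m S k C0 ≤ F r m S k C' := hmin C' (by simpa using hsub)
    rcases lt_or_eq_of_le h1 with h | h
    · rw [hC.2]; exact h
    · exfalso
      have := hcard C' ⟨hsub, h.symm⟩
      have h2 := Finset.card_lt_card hC'
      omega

/-- **Monotonicity of minimal minimisers.** -/
theorem MM.mono {r : V → V → Prop} {m : ℕ} {S1 J1 S2 J2 C1 C2 : Finset V} {k1 k2 : ℕ}
    (h1 : MM r m S1 J1 k1 C1) (h2 : MM r m S2 J2 k2 C2) (hk : k2 ≤ k1)
    (hS : ∀ x ∈ S1, ∀ b ∈ J1, b ∈ J2 → r x b → x ∈ S2)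
    (hJ : ∀ x ∈ S1, ∀ b ∈ J2, b ∉ J1 → ¬ r x b) :
    ∀ b ∈ C2, b ∈ J1 → b ∈ C1 := by
  by_contra hne
  push Not at hne
  obtain ⟨b0, hb0, hb0J, hb0C⟩ := hne
  set E : Finset V := (C2 ∩ J1) \ C1 with hE
  have hb0E : b0 ∈ E := by simp [hE, hb0, hb0J, hb0C]
  have hEpos : 0 < E.card := Finset.card_pos.mpr ⟨b0, hb0E⟩
  have hEC2 : E ⊆ C2 := by
    intro b hb
    simp only [hE, mem_sdiff, mem_inter] at hb
    exact hb.1.1
  have hEJ1 : E ⊆ J1 := by
    intro b hb
    simp only [hE, mem_sdiff, mem_inter] at hb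
    exact hb.1.2
  have hdisj : Disjoint C1 E := by
    rw [Finset.disjoint_left]
    intro b hb hb'
    simp only [hE, mem_sdiff, mem_inter] at hb'
    exact hb'.2 hb
  -- first system
  have hA := h1.min (C1 ∪ E) (union_subset h1.sub hEJ1)
  have hcardA : ((C1 ∪ E).card : ℤ) = C1.card + E.card := by
    rw [card_union_of_disjoint hdisj]; push_cast; ring
  set A : Finset V := hit r S1 (C1 ∪ E) \ hit r S1 C1 with hAdef
  have hAc : ((hit r S1 (C1 ∪ E)).card : ℤ) = (hit r S1 C1).card + A.card := by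
    have := Finset.card_sdiff_add_card_eq_card (hit_mono (r := r) (S := S1)
      (subset_union_left : C1 ⊆ C1 ∪ E))
    rw [← hAdef] at this
    omega
  -- second system
  have hlt : C2 \ E ⊂ C2 := by
    refine ⟨sdiff_subset, fun h => ?_⟩
    have := h (hEC2 hb0E)
    simp only [mem_sdiff] at this
    exact this.2 hb0E
  have hB := h2.strict (C2 \ E) hlt
  have hcardB : ((C2 \ E).card : ℤ) = C2.card - E.card := by
    have := Finset.card_sdiff_add_card_eq_card hEC2
    omega
  set B : Finset V := hit r S2 C2 \ hit r S2 (C2 \ E) with hBdef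
  have hBc : ((hit r S2 C2).card : ℤ) = (hit r S2 (C2 \ E)).card + B.card := by
    have := Finset.card_sdiff_add_card_eq_card (hit_mono (r := r) (S := S2)
      (sdiff_subset : C2 \ E ⊆ C2))
    rw [← hBdef] at this
    omega
  have hAB : A ⊆ B := by
    intro x hx
    simp only [hAdef, mem_sdiff, mem_hit, mem_union] at hx
    obtain ⟨⟨hxS, b, hb, hrb⟩, hno⟩ := hx
    have hno' : ∀ b' ∈ C1, ¬ r x b' := fun b' hb' hr' => hno ⟨hxS, b', hb', hr'⟩
    have hbE : b ∈ E := by
      rcases hb with hb | hb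
      · exact absurd hrb (hno' b hb)
      · exact hb
    have hxS2 : x ∈ S2 := hS x hxS b (hEJ1 hbE) (h2.sub (hEC2 hbE)) hrb
    simp only [hBdef, mem_sdiff, mem_hit]
    refine ⟨⟨hxS2, b, hEC2 hbE, hrb⟩, ?_⟩
    rintro ⟨_, b', hb', hr'⟩
    have hb'C2 : b' ∈ C2 := hb'.1
    by_cases hJ1 : b' ∈ J1
    · by_cases hC1 : b' ∈ C1
      · exact hno' b' hC1 hr'
      · exact hb'.2 (by simp [hE, hb'C2, hJ1, hC1])
    · exact hJ x hxS b' (h2.sub hb'C2) hJ1 hr'
  have hABc : (A.card : ℤ) ≤ B.card := by exact_mod_cast Finset.card_le_card hAB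
  unfold F at hA hB
  rw [hcardA, hAc] at hA
  rw [hcardB, hBc] at hB
  have hk' : (k2 : ℤ) ≤ k1 := by exact_mod_cast hk
  have hE' : (0 : ℤ) < E.card := by exact_mod_cast hEpos
  have hm : (0 : ℤ) ≤ m := by positivity
  have e1 : (k1 : ℤ) * E.card ≤ m * A.card := by nlinarith
  have e2 : (m : ℤ) * B.card < k2 * E.card := by nlinarith
  have e3 : (m : ℤ) * A.card ≤ m * B.card := mul_le_mul_of_nonneg_left hABc hm
  have e4 : (k2 : ℤ) * E.card ≤ k1 * E.card := mul_le_mul_of_nonneg_right hk' hE'.le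
  linarith

theorem F_succ (r : V → V → Prop) (m : ℕ) (S : Finset V) (k : ℕ) (C : Finset V) :
    F r m S (k + 1) C = F r m S k C - C.card := by
  unfold F
  push_cast
  ring

/-- Upper bound for the sum of the sizes of the minimisers. -/
theorem sum_upper {r : V → V → Prop} {m : ℕ} {S J : Finset V} (C : ℕ → Finset V)
    (hC : ∀ k, MM r m S J k (C k)) (K : ℕ) :
    ∑ k ∈ range K, ((C (k + 1)).card : ℤ) ≤ - F r m S K (C K) + (C K).card := by
  have key : ∀ K : ℕ, ∑ k ∈ range K, ((C k).card : ℤ) ≤ - F r m S K (C K) := by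
    intro K
    induction K with
    | zero =>
      have h := (hC 0).min ∅ (by simp)
      have h0 : F r m S 0 ∅ = 0 := by simp [F, hit_empty]
      rw [h0] at h
      simpa using h
    | succ K ih =>
      rw [sum_range_succ]
      have h := (hC (K + 1)).min (C K) (hC K).sub
      rw [F_succ r m S K (C K)] at h
      linarith
  have h1 := key K
  have h2 : ∑ k ∈ range (K + 1), ((C k).card : ℤ)
      = ∑ k ∈ range K, ((C (k + 1)).card : ℤ) + ((C 0).card : ℤ) := sum_range_succ' _ _
  have h3 : ∑ k ∈ range (K + 1), ((C k).card : ℤ)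
      = ∑ k ∈ range K, ((C k).card : ℤ) + ((C K).card : ℤ) := sum_range_succ _ _
  have h4 : (0 : ℤ) ≤ (C 0).card := by positivity
  linarith

/-- Lower bound for the sum of the sizes of the minimisers. -/
theorem sum_lower {r : V → V → Prop} {m : ℕ} {S J : Finset V} (C : ℕ → Finset V)
    (hC : ∀ k, MM r m S J k (C k)) (K : ℕ) :
    - F r m S K (C K) ≤ ∑ k ∈ range K, ((C (k + 1)).card : ℤ) := by
  induction K with
  | zero =>
    have h : (0 : ℤ) ≤ F r m S 0 (C 0) := by
      unfold F
      have : (0 : ℤ) ≤ (m : ℤ) * ((hit r S (C 0)).card : ℤ) := by positivity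
      simpa using this
    simpa using h
  | succ K ih =>
    rw [sum_range_succ]
    have h := (hC K).min (C (K + 1)) (hC (K + 1)).sub
    have h2 := F_succ r m S K (C (K + 1))
    linarith

end Vale.Agent.P038.H794
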